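import Vale.Agent.N370X.Main

/-!
# P370: QMA-hardness of the electronic energy on bound systems, of the ionization energy and of
the fundamental gap
-/

namespace Vale.Agent.Results.P370.A0Ionization

open Vale.Agent.N370X

theorem result :
    -- (0) codes determine instances
    Function.Injective Inst.code ∧
    ∀ c : ℕ, 0 < c →
      -- (1) the ground-state energy on instances which bind all their electrons
      Hard c (fun R N => E R N < E R (N - 1)) E ∧
      -- (2) minus the ionization energy
      Hard c (fun R N => E R N < E R (N - 1)) (fun R N => E R N - E R (N - 1)) ∧
      -- (3) the fundamental gap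
      Hard c (fun R N => E R (N + 1) < E R N ∧ E R N < E R (N - 1))
        fun R N => E R (N + 1) - 2 * E R N + E R (N - 1) :=
  ⟨code_inj, fun _ h => ⟨hard1 h, hard2 h, hard3 h⟩⟩

end Vale.Agent.Results.P370.A0Ionization
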