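import Vale.Agent.N370.Lat

/-!
# P370: the electronic ground-state energy stays QMA-hard for one chemical element and
polynomially bounded numbers
-/

namespace Vale.Agent.Results.P370.A0OneElement

open Vale.Agent.P370Z Vale.Agent.P370T Vale.Agent.N370

/-- All nuclei of the same charge `Z`, lattice positions, integer thresholds, all numbers
polynomially bounded, polynomially large gap. -/
theorem result : ∃ k : ℕ, ∀ Z : ℕ, 1 ≤ Z → QMAHard (yesE Z k) (noE Z k) :=
  ⟨80, fun _ hZ => hard_elem hZ⟩

end Vale.Agent.Results.P370.A0OneElement
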